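import Mathlib

/-!
# P280: a space of matrices, closed under brackets, whose elements have one eigenvalue each, has a
common eigenvector (Engel's theorem)
-/

set_option autoImplicit false

namespace Vale.Agent.P280.H231

attribute [local instance 100] LieRing.ofAssociativeRing

variable {V : Type} [AddCommGroup V] [Module ℂ V]

/-- the trace free part -/
noncomputable def tf (V : Type) [AddCommGroup V] [Module ℂ V] :
    Module.End ℂ V →ₗ[ℂ] Module.End ℂ V :=
  LinearMap.id - (((Module.finrank ℂ V : ℂ)⁻¹ • LinearMap.trace ℂ V).smulRight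
    (1 : Module.End ℂ V))

theorem tf_apply (x : Module.End ℂ V) :
    tf V x = x - ((Module.finrank ℂ V : ℂ)⁻¹ * LinearMap.trace ℂ V x) • 1 := by
  simp [tf]

theorem tf_comm (x y : Module.End ℂ V) : tf V (x * y - y * x) = x * y - y * x := by
  rw [tf_apply, map_sub, LinearMap.trace_mul_comm ℂ x y, sub_self, mul_zero, zero_smul, sub_zero]

theorem tf_lie (x y : Module.End ℂ V) :
    tf V x * tf V y - tf V y * tf V x = tf V (x * y - y * x) := by
  rw [tf_comm, tf_apply, tf_apply]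
  simp only [mul_sub, sub_mul, smul_mul_assoc, mul_smul_comm, one_mul, mul_one]
  module

theorem tf_nilp [FiniteDimensional ℂ V] [Nontrivial V] {x : Module.End ℂ V} (h : ∃ c : ℂ, IsNilpotent (x - c • 1)) :
    IsNilpotent (tf V x) := by
  obtain ⟨c, hc⟩ := h
  have h1 : IsNilpotent (LinearMap.trace ℂ V (x - c • 1)) :=
    LinearMap.isNilpotent_trace_of_isNilpotent hc
  have h2 := h1.eq_zero
  have hn : (Module.finrank ℂ V : ℂ) ≠ 0 := by
    have : 0 < Module.finrank ℂ V := Module.finrank_pos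
    exact_mod_cast this.ne'
  rw [map_sub, map_smul, LinearMap.trace_one, smul_eq_mul, sub_eq_zero] at h2
  rw [tf_apply, h2, mul_comm c, inv_mul_cancel_left₀ hn]
  exact hc

theorem eng {V : Type} [AddCommGroup V] [Module ℂ V] [FiniteDimensional ℂ V] [Nontrivial V]
    (S : Submodule ℂ (Module.End ℂ V)) (hbr : ∀ x ∈ S, ∀ y ∈ S, x * y - y * x ∈ S)
    (hs : ∀ x ∈ S, ∃ c : ℂ, IsNilpotent (x - c • 1)) :
    ∃ v : V, v ≠ 0 ∧ ∀ x ∈ S, ∃ c : ℂ, x v = c • v := by
  let N : LieSubalgebra ℂ (Module.End ℂ V) :=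
    { S.map (tf V) with
      lie_mem' := by
        rintro _ _ ⟨x, hx, rfl⟩ ⟨y, hy, rfl⟩
        exact ⟨x * y - y * x, hbr x hx y hy, (tf_lie x y).symm⟩ }
  have hmem : ∀ x ∈ S, tf V x ∈ N := fun x hx => ⟨x, hx, rfl⟩
  have hnil : LieModule.IsNilpotent N V := by
    rw [LieModule.isNilpotent_iff_forall (R := ℂ)]
    rintro ⟨_, x, hx, rfl⟩
    exact tf_nilp (hs x hx)
  have hnt : Nontrivial (LieModule.maxTrivSubmodule ℂ N V) :=
    LieModule.nontrivial_max_triv_of_isNilpotent ℂ N V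
  obtain ⟨⟨v, hv⟩, hne⟩ := exists_ne (0 : LieModule.maxTrivSubmodule ℂ N V)
  rw [LieModule.mem_maxTrivSubmodule] at hv
  refine ⟨v, fun h => hne (Subtype.ext h), fun x hx => ?_⟩
  have h1 : tf V x v = 0 := hv ⟨tf V x, hmem x hx⟩
  rw [tf_apply, LinearMap.sub_apply, LinearMap.smul_apply, Module.End.one_apply,
    sub_eq_zero] at h1
  exact ⟨_, h1⟩

end Vale.Agent.P280.H231
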